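import Mathlib

/-!
P204: an injective immersion of a compact set is bilipschitz.
-/

namespace Vale.Agent.P204.Full

open Filter Topology
open scoped NNReal ContDiff

variable {E F : Type*} [NormedAddCommGroup E] [NormedSpace ℝ E] [NormedAddCommGroup F]
  [NormedSpace ℝ F] [FiniteDimensional ℝ E]

/-- An injective map with injective derivative is bounded below on a compact set. -/
theorem exists_lower_dist {f : E → F} {O K : Set E} (hO : IsOpen O) (hKO : K ⊆ O)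
    (hK : IsCompact K) (hf : ContDiffOn ℝ 1 f O) (hinj : Set.InjOn f K)
    (hd : ∀ y ∈ K, Function.Injective (fderiv ℝ f y)) :
    ∃ k : ℝ, 0 < k ∧ ∀ y ∈ K, ∀ z ∈ K, k * ‖y - z‖ ≤ ‖f y - f z‖ := by
  by_contra hcon
  push Not at hcon
  choose y hy z hz hlt using fun n : ℕ => hcon (1 / ((n : ℝ) + 1)) (by positivity)
  obtain ⟨p, hp, φ, hφ, hlim⟩ := (hK.prod hK).tendsto_subseq (x := fun n => (y n, z n))
    fun n => ⟨hy n, hz n⟩
  obtain ⟨a, b⟩ := p
  obtain ⟨ha, hb⟩ : a ∈ K ∧ b ∈ K := hp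
  have hya : Tendsto (fun n => y (φ n)) atTop (𝓝 a) := (continuous_fst.tendsto _).comp hlim
  have hzb : Tendsto (fun n => z (φ n)) atTop (𝓝 b) := (continuous_snd.tendsto _).comp hlim
  have hcont : ∀ x ∈ K, ContinuousAt f x := fun x hx =>
    (hf.continuousOn).continuousAt (hO.mem_nhds (hKO hx))
  have h0 : Tendsto (fun n => 1 / ((φ n : ℝ) + 1)) atTop (𝓝 0) :=
    tendsto_one_div_add_atTop_nhds_zero_nat.comp hφ.tendsto_atTop
  by_cases hab : a = b
  · subst hab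
    have hs : HasStrictFDerivAt f (fderiv ℝ f a) a :=
      (hf.contDiffAt (hO.mem_nhds (hKO ha))).hasStrictFDerivAt one_ne_zero
    obtain ⟨κ, hκ, hanti⟩ := (fderiv ℝ f a).toLinearMap.exists_antilipschitzWith
      (LinearMap.ker_eq_bot.mpr (hd a ha))
    obtain ⟨k, hk⟩ : ∃ k : ℝ, k = ((κ : ℝ))⁻¹ / 2 := ⟨_, rfl⟩
    have hk0 : 0 < k := by
      rw [hk]
      have : (0 : ℝ) < κ := hκ
      positivity
    have hnear := hs.isLittleO.def hk0
    have hev := (hya.prodMk_nhds hzb).eventually hnear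
    obtain ⟨N, hN1, hN2⟩ := (hev.and (h0.eventually (eventually_lt_nhds hk0))).exists
    obtain ⟨u, hu⟩ : ∃ u, u = y (φ N) - z (φ N) := ⟨_, rfl⟩
    have hlow : 2 * k * ‖u‖ ≤ ‖fderiv ℝ f a u‖ := by
      have := hanti.le_mul_dist u 0
      simp only [dist_zero_right, map_zero] at this
      have hκ' : (0 : ℝ) < κ := hκ
      rw [hk, show 2 * ((κ : ℝ)⁻¹ / 2) * ‖u‖ = (κ : ℝ)⁻¹ * ‖u‖ by ring, inv_mul_le_iff₀ hκ']
      exact this
    have h1 := hlt (φ N)
    rw [← hu] at h1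
    simp only [← hu] at hN1
    have h2 := norm_sub_norm_le (fderiv ℝ f a u) (f (y (φ N)) - f (z (φ N)))
    rw [norm_sub_rev (fderiv ℝ f a u)] at h2
    have h3 : 1 / ((φ N : ℝ) + 1) * ‖u‖ ≤ k * ‖u‖ :=
      mul_le_mul_of_nonneg_right hN2.le (norm_nonneg _)
    linarith
  · have hl : Tendsto (fun n => ‖f (y (φ n)) - f (z (φ n))‖) atTop (𝓝 ‖f a - f b‖) :=
      (((hcont a ha).tendsto.comp hya).sub ((hcont b hb).tendsto.comp hzb)).norm
    have hr : Tendsto (fun n => 1 / ((φ n : ℝ) + 1) * ‖y (φ n) - z (φ n)‖) atTop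
        (𝓝 (0 * ‖a - b‖)) := h0.mul (hya.sub hzb).norm
    rw [zero_mul] at hr
    have := le_of_tendsto_of_tendsto' hl hr fun n => (hlt (φ n)).le
    exact hab (hinj ha hb (sub_eq_zero.mp (norm_le_zero_iff.mp this)))

omit [FiniteDimensional ℝ E] in
/-- A `C^1` map is Lipschitz on a compact convex set. -/
theorem exists_upper_dist {f : E → F} {O K : Set E} (hO : IsOpen O) (hKO : K ⊆ O)
    (hK : IsCompact K) (hKc : Convex ℝ K) (hf : ContDiffOn ℝ 1 f O) :
    ∃ C : ℝ, 0 < C ∧ ∀ y ∈ K, ∀ z ∈ K, ‖f y - f z‖ ≤ C * ‖y - z‖ := by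
  obtain ⟨C, hC⟩ := (hK.image_of_continuousOn
    ((hf.continuousOn_fderiv_of_isOpen hO le_rfl).mono hKO)).isBounded.exists_norm_le
  refine ⟨max C 1, lt_max_of_lt_right one_pos, fun y hy z hz => ?_⟩
  exact hKc.norm_image_sub_le_of_norm_fderiv_le
    (fun x hx => (hf.differentiableOn one_ne_zero).differentiableAt (hO.mem_nhds (hKO hx)))
    (fun x hx => (hC _ ⟨x, hx, rfl⟩).trans (le_max_left _ _)) hz hy

end Vale.Agent.P204.Full
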