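import Vale.Agent.P204.Full.Flat

/-!
P204: every complex structure on the model space is linearly conjugate to the standard one.
-/

namespace Vale.Agent.P204.Full

open Submodule

/-- the standard complex structure as a continuous linear map -/
noncomputable def J0L : E4 →L[ℝ] E4 :=
  LinearMap.toContinuousLinearMap
    { toFun := fun v => WithLp.toLp 2 (J0.mulVec v.ofLp)
      map_add' := fun u v => by simp [Matrix.mulVec_add]
      map_smul' := fun c v => by simp [Matrix.mulVec_smul] }

theorem J0L_apply (v : E4) : (J0L v).ofLp = J0.mulVec v.ofLp := rfl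

theorem J0L_ev4 :
    J0L (ev4 0) = ev4 1 ∧ J0L (ev4 1) = -ev4 0 ∧ J0L (ev4 2) = ev4 3 ∧ J0L (ev4 3) = -ev4 2 := by
  refine ⟨?_, ?_, ?_, ?_⟩ <;>
  · apply PiLp.ext
    intro i
    fin_cases i <;> simp [J0L_apply, ev4, J0, Matrix.mulVec, dotProduct]

variable {A : E4 →L[ℝ] E4}

theorem cfree_two (hA : ∀ v, A (A v) = -v) (e : E4) (he : e ≠ 0) (a b : ℝ)
    (h : a • e + b • A e = 0) : a = 0 ∧ b = 0 := by
  have h2 := congrArg A h
  simp only [map_add, map_smul, hA, map_zero] at h2
  have h3 : (a * a + b * b) • e = 0 := by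
    have : a • (a • e + b • A e) - b • (a • A e + b • -e) = (0 : E4) := by rw [h, h2]; simp
    rw [← this]; module
  rcases smul_eq_zero.mp h3 with h4 | h4
  · exact ⟨by nlinarith [mul_self_nonneg a, mul_self_nonneg b],
      by nlinarith [mul_self_nonneg a, mul_self_nonneg b]⟩
  · exact absurd h4 he

/-- A complex structure has a linearly independent frame `e, A e, f, A f`. -/
theorem exists_cframe (hA : ∀ v, A (A v) = -v) :
    ∃ e f : E4, LinearIndependent ℝ ![e, A e, f, A f] := by
  have he : (ev4 0 : E4) ≠ 0 := by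
    intro h; have := congrArg (fun v : E4 => v 0) h; simp [ev4] at this
  obtain ⟨S, hS⟩ : ∃ S, S = span ℝ ({ev4 0, A (ev4 0)} : Set E4) := ⟨_, rfl⟩
  have hne : S ≠ ⊤ := by
    intro h
    classical
    have h1 := finrank_span_finset_le_card (R := ℝ) ({ev4 0, A (ev4 0)} : Finset E4)
    rw [Finset.coe_pair] at h1
    unfold Set.finrank at h1
    have h2 : ({ev4 0, A (ev4 0)} : Finset E4).card ≤ 2 := Finset.card_le_two
    rw [← hS, h, finrank_top, finrank_euclideanSpace_fin] at h1
    omega
  obtain ⟨f, -, hf⟩ := SetLike.exists_of_lt (lt_top_iff_ne_top.mpr hne)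
  refine ⟨ev4 0, f, Fintype.linearIndependent_iff.mpr fun g hg => ?_⟩
  simp only [Fin.sum_univ_four, Matrix.cons_val_zero, Matrix.cons_val_one, Matrix.cons_val] at hg
  have heq : g 2 • f + g 3 • A f = -(g 0 • ev4 0 + g 1 • A (ev4 0)) := by
    rw [eq_neg_iff_add_eq_zero, ← hg]; module
  have hmem : g 2 • f + g 3 • A f ∈ S := by
    rw [heq, hS]
    exact neg_mem (add_mem (smul_mem _ _ (subset_span (by simp)))
      (smul_mem _ _ (subset_span (by simp))))
  have hAS : A (g 2 • f + g 3 • A f) ∈ S := by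
    rw [heq, map_neg, map_add, map_smul, map_smul, hA, hS]
    exact neg_mem (add_mem (smul_mem _ _ (subset_span (by simp)))
      (smul_mem _ _ (neg_mem (subset_span (by simp)))))
  have hc : g 2 * g 2 + g 3 * g 3 = 0 := by
    by_contra hc
    apply hf
    have hm : (g 2 * g 2 + g 3 * g 3) • f ∈ S := by
      have := sub_mem (smul_mem S (g 2) hmem) (smul_mem S (g 3) hAS)
      convert this using 1
      simp only [map_add, map_smul, hA]; module
    simpa [smul_smul, inv_mul_cancel₀ hc] using smul_mem S (g 2 * g 2 + g 3 * g 3)⁻¹ hm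
  have h2 : g 2 = 0 := by nlinarith [mul_self_nonneg (g 2), mul_self_nonneg (g 3)]
  have h3 : g 3 = 0 := by nlinarith [mul_self_nonneg (g 2), mul_self_nonneg (g 3)]
  rw [h2, h3, zero_smul, zero_smul, add_zero, add_zero] at hg
  obtain ⟨h0, h1⟩ := cfree_two hA _ he _ _ hg
  intro i
  fin_cases i <;> assumption

/-- A complex structure is conjugate to `J0`. -/
theorem exists_conj_J0 (hA : ∀ v, A (A v) = -v) :
    ∃ L : E4 ≃L[ℝ] E4, ∀ v, L (A v) = J0L (L v) := by
  obtain ⟨e, f, hli⟩ := exists_cframe hA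
  let b : Module.Basis (Fin 4) ℝ E4 :=
    basisOfLinearIndependentOfCardEqFinrank hli (by simp)
  have hb : ∀ i, b i = ![e, A e, f, A f] i := fun i => by
    simp [b]
  let L : E4 ≃L[ℝ] E4 :=
    (b.equiv (EuclideanSpace.basisFun (Fin 4) ℝ).toBasis (Equiv.refl _)).toContinuousLinearEquiv
  have hL : ∀ i, L (![e, A e, f, A f] i) = ev4 i := fun i => by
    rw [← hb i]
    simp [L, ev4]
  have he := hL 0
  have hAe := hL 1
  have hf := hL 2
  have hAf := hL 3
  simp only [Matrix.cons_val_zero, Matrix.cons_val_one, Matrix.cons_val] at he hAe hf hAf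
  obtain ⟨j0, j1, j2, j3⟩ := J0L_ev4
  refine ⟨L, fun v => ?_⟩
  have : (L : E4 →L[ℝ] E4).toLinearMap ∘ₗ A.toLinearMap
      = J0L.toLinearMap ∘ₗ (L : E4 →L[ℝ] E4).toLinearMap := by
    apply b.ext
    intro i
    fin_cases i <;> simp [hb, hA, he, hAe, hf, hAf, j0, j1, j2, j3]
  simpa using LinearMap.congr_fun this v

end Vale.Agent.P204.Full
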