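import Vale.Agent.P204.Full.Atlas.CFrame
import Vale.Agent.P204.Full.Core

/-!
P204: charts around every point in which a given almost complex structure is close to `J0`.
-/

namespace Vale.Agent.P204.Full

open scoped Manifold ContDiff Topology
open Filter

universe u

variable {M : Type u} [TopologicalSpace M] [ChartedSpace E4 M]

/-- a field of endomorphisms read in a chart -/
noncomputable def endIn (c : OpenPartialHomeomorph M E4) (J : M → E4 → E4) (y v : E4) : E4 :=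
  dMap c (c.symm y) (J (c.symm y) (dInv c y v))

theorem readJ_eq (c : OpenPartialHomeomorph M E4) (J : M → E4 → E4) (y : E4) (p a : Fin 4) :
    readJ c J y p a = endIn c J y (ev4 a) p := rfl

/-- the affine change of coordinates `y ↦ r • L (y - a)` -/
noncomputable def affHomeo (L : E4 ≃L[ℝ] E4) (a : E4) (r : ℝ) (hr : r ≠ 0) : E4 ≃ₜ E4 where
  toFun y := r • L (y - a)
  invFun y := a + r⁻¹ • L.symm y
  left_inv y := by simp [smul_smul, hr]
  right_inv y := by simp [smul_smul, hr]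
  continuous_toFun := by fun_prop
  continuous_invFun := by fun_prop

theorem affHomeo_mem (L : E4 ≃L[ℝ] E4) (a : E4) (r : ℝ) (hr : r ≠ 0) :
    (affHomeo L a r hr).toOpenPartialHomeomorph ∈ contDiffGroupoid ∞ (𝓡 4) := by
  rw [contDiffGroupoid, mem_groupoid_of_pregroupoid]
  constructor
  · simp only [contDiffPregroupoid, modelWithCornersSelf_coe, modelWithCornersSelf_coe_symm,
      Function.id_comp, Function.comp_id]
    exact ((by fun_prop : ContDiff ℝ ∞ fun y => r • L (y - a))).contDiffOn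
  · simp only [contDiffPregroupoid, modelWithCornersSelf_coe, modelWithCornersSelf_coe_symm,
      Function.id_comp, Function.comp_id]
    exact ((by fun_prop : ContDiff ℝ ∞ fun y => a + r⁻¹ • L.symm y)).contDiffOn

theorem transHomeomorph_mem_maximalAtlas [IsManifold (𝓡 4) ∞ M] {e : OpenPartialHomeomorph M E4}
    (he : e ∈ IsManifold.maximalAtlas (𝓡 4) ∞ M) {φ : E4 ≃ₜ E4}
    (hφ : φ.toOpenPartialHomeomorph ∈ contDiffGroupoid ∞ (𝓡 4)) :
    e.transHomeomorph φ ∈ IsManifold.maximalAtlas (𝓡 4) ∞ M := by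
  rw [IsManifold.mem_maximalAtlas_iff, mem_maximalAtlas_iff]
  intro e' he'
  obtain ⟨h1, h2⟩ := mem_maximalAtlas_iff.mp (IsManifold.mem_maximalAtlas_iff.mp he) e' he'
  rw [OpenPartialHomeomorph.transHomeomorph_eq_trans]
  constructor
  · rw [OpenPartialHomeomorph.trans_symm_eq_symm_trans_symm, OpenPartialHomeomorph.trans_assoc]
    exact StructureGroupoid.trans _ (StructureGroupoid.symm _ hφ) h1
  · rw [← OpenPartialHomeomorph.trans_assoc]
    exact StructureGroupoid.trans _ h2 hφ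

theorem mfderiv_affine (L : E4 ≃L[ℝ] E4) (a : E4) (r : ℝ) (y v : E4) :
    mfderiv (𝓡 4) (𝓡 4) (fun y => r • L (y - a)) y v = r • L v := by
  rw [mfderiv_eq_fderiv]
  have h : HasFDerivAt (fun y => r • L (y - a)) (r • (L : E4 →L[ℝ] E4)) y := by
    exact (L.hasFDerivAt.comp y ((hasFDerivAt_id y).sub_const a)).const_smul r
  rw [h.fderiv]
  rfl

theorem mfderiv_affine_symm (L : E4 ≃L[ℝ] E4) (a : E4) (r : ℝ) (y v : E4) :
    mfderiv (𝓡 4) (𝓡 4) (fun y => a + r⁻¹ • L.symm y) y v = r⁻¹ • L.symm v := by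
  rw [mfderiv_eq_fderiv]
  have h : HasFDerivAt (fun y => a + r⁻¹ • L.symm y) (r⁻¹ • (L.symm : E4 →L[ℝ] E4)) y := by
    simpa using (L.symm.hasFDerivAt.const_smul r⁻¹).const_add a
  rw [h.fderiv]
  rfl

/-- the structure read in `e` composed with an affine change of coordinates -/
theorem endIn_transHomeomorph [IsManifold (𝓡 4) ∞ M] {e : OpenPartialHomeomorph M E4}
    (he : e ∈ IsManifold.maximalAtlas (𝓡 4) ∞ M) {J : M → E4 → E4}
    (hJ : ∀ x, IsLinearMap ℝ (J x)) (L : E4 ≃L[ℝ] E4) (a : E4) (r : ℝ) (hr : r ≠ 0) (y v : E4)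
    (hy : a + r⁻¹ • L.symm y ∈ e.target) :
    endIn (e.transHomeomorph (affHomeo L a r hr)) J y v
      = L (endIn e J (a + r⁻¹ • L.symm y) (L.symm v)) := by
  have he1 := IsManifold.maximalAtlas_subset_of_le (I := 𝓡 4) (M := M)
    (by simp : (1 : ℕ∞ω) ≤ ∞) he
  have d1 : MDifferentiableAt (𝓡 4) (𝓡 4) (fun y => a + r⁻¹ • L.symm y) y :=
    (by fun_prop : DifferentiableAt ℝ (fun y => a + r⁻¹ • L.symm y) y).mdifferentiableAt
  have d2 : MDifferentiableAt (𝓡 4) (𝓡 4) (fun y => r • L (y - a))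
      (e (e.symm (a + r⁻¹ • L.symm y))) :=
    (by fun_prop : DifferentiableAt ℝ (fun y => r • L (y - a))
      (e (e.symm (a + r⁻¹ • L.symm y)))).mdifferentiableAt
  have d3 : MDifferentiableAt (𝓡 4) (𝓡 4) e.symm ((fun y => a + r⁻¹ • L.symm y) y) :=
    mdifferentiableAt_symm_of_mem_maximalAtlas he1 hy
  have d4 : MDifferentiableAt (𝓡 4) (𝓡 4) e (e.symm (a + r⁻¹ • L.symm y)) :=
    mdifferentiableAt_of_mem_maximalAtlas he1 (e.map_target hy)
  let D : E4 →L[ℝ] E4 := mfderiv (𝓡 4) (𝓡 4) e (e.symm (a + r⁻¹ • L.symm y))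
  let B : E4 →L[ℝ] E4 := mfderiv (𝓡 4) (𝓡 4) e.symm (a + r⁻¹ • L.symm y)
  let D' : E4 →L[ℝ] E4 := mfderiv (𝓡 4) (𝓡 4) (e.transHomeomorph (affHomeo L a r hr))
    (e.symm (a + r⁻¹ • L.symm y))
  let B' : E4 →L[ℝ] E4 := mfderiv (𝓡 4) (𝓡 4) (e.transHomeomorph (affHomeo L a r hr)).symm y
  have e1 : ∀ u : E4, B' u = B (r⁻¹ • L.symm u) := by
    intro u
    change mfderiv (𝓡 4) (𝓡 4) (e.symm ∘ fun y => a + r⁻¹ • L.symm y) y u = _
    rw [mfderiv_comp y d3 d1]
    exact congrArg B (mfderiv_affine_symm L a r y u)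
  have e2 : ∀ u : E4, D' u = r • L (D u) := by
    intro u
    change mfderiv (𝓡 4) (𝓡 4) ((fun y => r • L (y - a)) ∘ e) _ u = _
    rw [mfderiv_comp _ d2 d4]
    exact mfderiv_affine L a r _ _
  change D' (J (e.symm (a + r⁻¹ • L.symm y)) (B' v))
    = L (D (J (e.symm (a + r⁻¹ • L.symm y)) (B (L.symm v))))
  rw [e2, e1]
  simp [(hJ _).map_smul, smul_smul, hr]

/-- In the preferred chart an almost complex structure is a continuous field of complex
structures. -/
theorem exists_endIn_chartAt [IsManifold (𝓡 4) ∞ M] {J : M → E4 → E4} (hJ : IsAlmostComplex J)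
    (x : M) : ∃ A : E4 → E4 →L[ℝ] E4, ContinuousOn A (chartAt E4 x).target ∧
      (∀ y ∈ (chartAt E4 x).target, ∀ v, A y (A y v) = -v) ∧
      ∀ y v, A y v = endIn (chartAt E4 x) J y v := by
  obtain ⟨hl, hsq, hsm⟩ := hJ
  let D : E4 → E4 →L[ℝ] E4 := fun y =>
    mfderiv (𝓡 4) (𝓡 4) (chartAt E4 x) ((chartAt E4 x).symm y)
  let B : E4 → E4 →L[ℝ] E4 := fun y => mfderiv (𝓡 4) (𝓡 4) (chartAt E4 x).symm y
  refine ⟨fun y => LinearMap.toContinuousLinearMap
    ((D y).toLinearMap ∘ₗ (hl ((chartAt E4 x).symm y)).mk' _ ∘ₗ (B y).toLinearMap),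
    ?_, ?_, fun y v => rfl⟩
  · refine continuousOn_clm_apply.mpr fun v => ?_
    have h := (hsm x v).continuousOn
    simp only [extChartAt, OpenPartialHomeomorph.extend, modelWithCornersSelf_partialEquiv,
      PartialEquiv.trans_refl] at h
    refine h.congr fun y _ => ?_
    simp only [toChart, fromChart, extChartAt, OpenPartialHomeomorph.extend,
      modelWithCornersSelf_partialEquiv]
    rfl
  · intro y hy v
    have hd : (chartAt E4 x).MDifferentiable (𝓡 4) (𝓡 4) := mdifferentiable_chart x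
    have h1 := hd.symm_comp_deriv ((chartAt E4 x).map_target hy)
    rw [(chartAt E4 x).right_inv hy] at h1
    have h2 : ∀ u : E4, B y (D y u) = u := fun u => congrFun (congrArg DFunLike.coe h1) u
    have h4 : ∀ u : E4, D y (B y u) = u :=
      fun u => congrFun (congrArg DFunLike.coe (hd.comp_symm_deriv hy)) u
    change D y (J ((chartAt E4 x).symm y) (B y (D y (J ((chartAt E4 x).symm y) (B y v))))) = -v
    rw [h2, hsq, map_neg, h4]

/-- Around every point there is a chart over the ball of radius `4` in which the structure is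
within `ε` of the standard one. -/
theorem exists_near_chart [IsManifold (𝓡 4) ∞ M] {J : M → E4 → E4} (hJ : IsAlmostComplex J)
    (x : M) {ε : ℝ} (hε : 0 < ε) :
    ∃ c ∈ IsManifold.maximalAtlas (𝓡 4) ∞ M, x ∈ c.source ∧ c x = 0 ∧
      Metric.closedBall (0 : E4) 4 ⊆ c.target ∧
      ∀ y ∈ Metric.closedBall (0 : E4) 4, ∀ v, ‖endIn c J y v - J0L v‖ ≤ ε * ‖v‖ := by
  obtain ⟨A, hAc, hAA, hA⟩ := exists_endIn_chartAt hJ x
  obtain ⟨a, ha⟩ : ∃ a, a = chartAt E4 x x := ⟨_, rfl⟩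
  have hat : a ∈ (chartAt E4 x).target := ha ▸ mem_chart_target E4 x
  obtain ⟨L, hL⟩ := exists_conj_J0 (hAA a hat)
  obtain ⟨K, hK⟩ : ∃ K, K = ‖(L : E4 →L[ℝ] E4)‖ * ‖(L.symm : E4 →L[ℝ] E4)‖ + 1 := ⟨_, rfl⟩
  have hK0 : 0 < K := hK ▸ by positivity
  obtain ⟨δ, hδ, hsub⟩ := Metric.mem_nhds_iff.mp
    (Filter.inter_mem ((chartAt E4 x).open_target.mem_nhds hat)
      ((hAc.continuousAt ((chartAt E4 x).open_target.mem_nhds hat)).preimage_mem_nhds
        (Metric.closedBall_mem_nhds (A a) (div_pos hε hK0))))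
  obtain ⟨r, hr, hrδ⟩ : ∃ r : ℝ, 0 < r ∧
      r⁻¹ * (‖(L.symm : E4 →L[ℝ] E4)‖ * 4) < δ := by
    refine ⟨(‖(L.symm : E4 →L[ℝ] E4)‖ * 4 + 1) / δ, by positivity, ?_⟩
    rw [inv_div, div_mul_eq_mul_div, div_lt_iff₀ (by positivity)]
    nlinarith
  have hball : ∀ y ∈ Metric.closedBall (0 : E4) 4, a + r⁻¹ • L.symm y ∈ Metric.ball a δ := by
    intro y hy
    rw [mem_closedBall_zero_iff] at hy
    rw [mem_ball_iff_norm, add_sub_cancel_left, norm_smul, norm_inv, Real.norm_eq_abs,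
      abs_of_pos hr]
    refine lt_of_le_of_lt (mul_le_mul_of_nonneg_left ?_ (by positivity)) hrδ
    exact ((L.symm : E4 →L[ℝ] E4).le_opNorm y).trans
      (mul_le_mul_of_nonneg_left hy (norm_nonneg _))
  refine ⟨(chartAt E4 x).transHomeomorph (affHomeo L a r hr.ne'),
    transHomeomorph_mem_maximalAtlas (IsManifold.chart_mem_maximalAtlas x)
      (affHomeo_mem L a r hr.ne'), mem_chart_source E4 x, ?_, ?_, ?_⟩
  · change r • L (chartAt E4 x x - a) = 0
    simp [ha]
  · exact fun y hy => (hsub (hball y hy)).1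
  · intro y hy v
    obtain ⟨hq1, hq2⟩ := hsub (hball y hy)
    rw [Set.mem_preimage, mem_closedBall_iff_norm] at hq2
    rw [endIn_transHomeomorph (IsManifold.chart_mem_maximalAtlas x) hJ.1 L a r hr.ne' y v hq1,
      ← hA]
    have h0 : J0L v = L (A a (L.symm v)) := by rw [hL]; simp
    rw [h0, ← map_sub, ← sub_apply]
    calc ‖L ((A (a + r⁻¹ • L.symm y) - A a) (L.symm v))‖
        ≤ ‖(L : E4 →L[ℝ] E4)‖ * ((ε / K) * (‖(L.symm : E4 →L[ℝ] E4)‖ * ‖v‖)) := by
          refine ((L : E4 →L[ℝ] E4).le_opNorm _).trans ?_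
          gcongr
          refine (ContinuousLinearMap.le_opNorm _ _).trans ?_
          gcongr
          exact (L.symm : E4 →L[ℝ] E4).le_opNorm v
      _ = (ε * ‖v‖) * ((‖(L : E4 →L[ℝ] E4)‖ * ‖(L.symm : E4 →L[ℝ] E4)‖) / K) := by ring
      _ ≤ (ε * ‖v‖) * 1 := by
          gcongr
          rw [div_le_one hK0, hK]
          linarith
      _ = ε * ‖v‖ := mul_one _

end Vale.Agent.P204.Full
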