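import Vale.Agent.P204.Full.Atlas.Charts
import Vale.Agent.P204.Full.Atlas.Bilip

/-!
P204: existence of a finite adapted atlas with a partition of unity and an embedding which is
bilipschitz in every chart.
-/

namespace Vale.Agent.P204.Full

open scoped Manifold ContDiff Topology
open Filter

universe u

variable {M : Type u} [TopologicalSpace M] [ChartedSpace E4 M] [IsManifold (𝓡 4) ∞ M]

omit [IsManifold (𝓡 4) ∞ M] in
/-- an embedding into Euclidean space is bilipschitz on closed balls of a chart -/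
theorem exists_embedding_bilip {d : ℕ} {ι : M → EuclideanSpace ℝ (Fin d)}
    (hι : ContMDiff (𝓡 4) (𝓡 d) ∞ ι) (hinj : Function.Injective ι)
    (himm : ∀ x, Function.Injective (mfderiv (𝓡 4) (𝓡 d) ι x))
    {c : OpenPartialHomeomorph M E4} (hc : c ∈ IsManifold.maximalAtlas (𝓡 4) ∞ M) {R : ℝ}
    (hR : Metric.closedBall (0 : E4) R ⊆ c.target) :
    ∃ k C : ℝ, 0 < k ∧ 0 < C ∧ ∀ y ∈ Metric.closedBall (0 : E4) R,
      ∀ z ∈ Metric.closedBall (0 : E4) R,
        k * ‖y - z‖ ≤ ‖ι (c.symm y) - ι (c.symm z)‖ ∧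
          ‖ι (c.symm y) - ι (c.symm z)‖ ≤ C * ‖y - z‖ := by
  have hc1 := IsManifold.maximalAtlas_subset_of_le (I := 𝓡 4) (M := M)
    (by simp : (1 : ℕ∞ω) ≤ ∞) hc
  have hf : ContDiffOn ℝ 1 (fun y => ι (c.symm y)) c.target := by
    have h : ContMDiffOn (𝓡 4) (𝓡 d) ∞ (ι ∘ c.symm) c.target :=
      hι.comp_contMDiffOn (contMDiffOn_symm_of_mem_maximalAtlas hc)
    exact h.contDiffOn.of_le (by simp)
  have hd : ∀ y ∈ Metric.closedBall (0 : E4) R,
      Function.Injective (fderiv ℝ (fun y => ι (c.symm y)) y) := by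
    intro y hy
    have hsymm : c.MDifferentiable (𝓡 4) (𝓡 4) :=
      ⟨fun z hz => (mdifferentiableAt_of_mem_maximalAtlas hc1 hz).mdifferentiableWithinAt,
        fun z hz => (mdifferentiableAt_symm_of_mem_maximalAtlas hc1 hz).mdifferentiableWithinAt⟩
    have h1 := hsymm.comp_symm_deriv (hR hy)
    have hcomp : mfderiv (𝓡 4) (𝓡 d) (ι ∘ c.symm) y
        = (mfderiv (𝓡 4) (𝓡 d) ι (c.symm y)).comp (mfderiv (𝓡 4) (𝓡 4) c.symm y) :=
      mfderiv_comp y (hι.mdifferentiableAt (by simp)) (hsymm.mdifferentiableAt_symm (hR hy))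
    intro u v huv
    have h2 : mfderiv (𝓡 4) (𝓡 d) (ι ∘ c.symm) y u = mfderiv (𝓡 4) (𝓡 d) (ι ∘ c.symm) y v := by
      rw [mfderiv_eq_fderiv]; exact huv
    rw [hcomp] at h2
    have h3 := himm (c.symm y) h2
    have h4 := congrArg (mfderiv (𝓡 4) (𝓡 4) c (c.symm y)) h3
    exact (congrFun (congrArg DFunLike.coe h1) u).symm.trans
      (h4.trans (congrFun (congrArg DFunLike.coe h1) v))
  obtain ⟨k, hk, hkb⟩ := exists_lower_dist c.open_target hR (isCompact_closedBall 0 R) hf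
    (fun y hy z hz h => c.symm.injOn (hR hy) (hR hz) (hinj h)) hd
  obtain ⟨C, hC, hCb⟩ := exists_upper_dist c.open_target hR (isCompact_closedBall 0 R)
    (convex_closedBall 0 R) hf
  exact ⟨k, C, hk, hC, fun y hy z hz => ⟨hkb y hy z hz, hCb y hy z hz⟩⟩

omit [IsManifold (𝓡 4) ∞ M] [ChartedSpace E4 M] in
/-- the part of a chart over a ball around the origin -/
theorem isOpen_chartBall (c : OpenPartialHomeomorph M E4) (R : ℝ) :
    IsOpen (c.source ∩ c ⁻¹' Metric.ball (0 : E4) R) :=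
  c.isOpen_inter_preimage Metric.isOpen_ball

/-- Finitely many adapted charts cover a closed manifold, with a subordinate partition of unity. -/
theorem exists_adapted_charts [T2Space M] [CompactSpace M] {J : M → E4 → E4}
    (hJ : IsAlmostComplex J) {ε : ℝ} (hε : 0 < ε) :
    ∃ (m : ℕ) (c : Fin m → OpenPartialHomeomorph M E4)
      (ρ : SmoothPartitionOfUnity (Fin m) (𝓡 4) M Set.univ),
      (∀ i, c i ∈ IsManifold.maximalAtlas (𝓡 4) ∞ M) ∧
      (∀ i, Metric.closedBall (0 : E4) 4 ⊆ (c i).target) ∧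
      (∀ i, ∀ y ∈ Metric.closedBall (0 : E4) 4, ∀ v, ‖endIn (c i) J y v - J0L v‖ ≤ ε * ‖v‖) ∧
      (∀ x, ∃ i, x ∈ (c i).source ∧ c i x ∈ Metric.ball (0 : E4) 1) ∧
      ρ.IsSubordinate fun i => (c i).source ∩ c i ⁻¹' Metric.ball (0 : E4) 1 := by
  choose ch hmax hsrc h0 htgt hnear using fun x : M => exists_near_chart hJ x hε
  obtain ⟨s, hs⟩ := isCompact_univ.elim_finite_subcover
    (fun x => (ch x).source ∩ ch x ⁻¹' Metric.ball (0 : E4) 1) (fun x => isOpen_chartBall _ _)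
    (fun x _ => Set.mem_iUnion.mpr ⟨x, hsrc x, by simp [h0 x]⟩)
  let φ : Fin s.card → M := fun i => (s.equivFin.symm i).1
  have hcov : ∀ x, ∃ i, x ∈ (ch (φ i)).source ∧ ch (φ i) x ∈ Metric.ball (0 : E4) 1 := by
    intro x
    obtain ⟨p, hp, hx⟩ := Set.mem_iUnion₂.mp (hs (Set.mem_univ x))
    exact ⟨s.equivFin ⟨p, hp⟩, by simpa [φ] using hx⟩
  obtain ⟨ρ, hρ⟩ := SmoothPartitionOfUnity.exists_isSubordinate (I := 𝓡 4) isClosed_univ
    (fun i => (ch (φ i)).source ∩ ch (φ i) ⁻¹' Metric.ball (0 : E4) 1)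
    (fun i => isOpen_chartBall _ _)
    (fun x _ => Set.mem_iUnion.mpr (hcov x))
  exact ⟨s.card, fun i => ch (φ i), ρ, fun i => hmax _, fun i => htgt _, fun i => hnear _, hcov, hρ⟩

/-- An embedding into Euclidean space which is bilipschitz in all charts of a finite family. -/
theorem exists_embedding_adapted [T2Space M] [CompactSpace M] {m : ℕ}
    {c : Fin m → OpenPartialHomeomorph M E4}
    (hc : ∀ i, c i ∈ IsManifold.maximalAtlas (𝓡 4) ∞ M) {R : ℝ}
    (hR : ∀ i, Metric.closedBall (0 : E4) R ⊆ (c i).target) :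
    ∃ (d : ℕ) (ι : M → EuclideanSpace ℝ (Fin d)) (k C : ℝ),
      ContMDiff (𝓡 4) (𝓡 d) ∞ ι ∧ Function.Injective ι ∧
      0 < k ∧ 0 < C ∧ ∀ i, ∀ y ∈ Metric.closedBall (0 : E4) R,
        ∀ z ∈ Metric.closedBall (0 : E4) R,
          k * ‖y - z‖ ≤ ‖ι ((c i).symm y) - ι ((c i).symm z)‖ ∧
            ‖ι ((c i).symm y) - ι ((c i).symm z)‖ ≤ C * ‖y - z‖ := by
  obtain ⟨d, ι, hι, hemb, himm⟩ := exists_embedding_euclidean_of_compact (I := 𝓡 4) (M := M)
  choose k C hk hC hb using fun i => exists_embedding_bilip hι hemb.injective himm (hc i) (hR i)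
  have hpos : 0 < 1 + ∑ i, ((k i)⁻¹ + C i) := add_pos_of_pos_of_nonneg one_pos
    (Finset.sum_nonneg fun i _ => (add_pos (inv_pos.mpr (hk i)) (hC i)).le)
  refine ⟨d, ι, (1 + ∑ i, ((k i)⁻¹ + C i))⁻¹, 1 + ∑ i, ((k i)⁻¹ + C i), hι, hemb.injective,
    inv_pos.mpr hpos, hpos, fun i y hy z hz => ?_⟩
  have hle : (k i)⁻¹ + C i ≤ ∑ i, ((k i)⁻¹ + C i) := Finset.single_le_sum
    (fun j _ => (add_pos (inv_pos.mpr (hk j)) (hC j)).le) (Finset.mem_univ i)
  obtain ⟨h1, h2⟩ := hb i y hy z hz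
  constructor
  · refine le_trans (mul_le_mul_of_nonneg_right ?_ (norm_nonneg _)) h1
    rw [inv_le_comm₀ hpos (hk i)]
    linarith [hC i]
  · refine h2.trans (mul_le_mul_of_nonneg_right ?_ (norm_nonneg _))
    linarith [inv_pos.mpr (hk i)]

end Vale.Agent.P204.Full
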