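import Vale.Agent.P204.Full.Atlas.Cover
import Vale.Agent.P204.Full.Closed
import Vale.Agent.P204.Full.Spec

/-!
P204: the adapted setup of a tamed almost complex structure.
-/

namespace Vale.Agent.P204.Full

open scoped Manifold ContDiff Topology
open Metric Set

universe u

theorem abs_apply_le_norm4 (v : E4) (p : Fin 4) : |v p| ≤ ‖v‖ := by
  simpa using PiLp.norm_apply_le v p

theorem isSmoothFn_of_contMDiff {M : Type u} [TopologicalSpace M] [ChartedSpace E4 M]
    [IsManifold (𝓡 4) ∞ M] {f : M → ℝ} (hf : ContMDiff (𝓡 4) 𝓘(ℝ, ℝ) ∞ f) : IsSmoothFn f :=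
  fun x0 => (hf.comp_contMDiffOn (contMDiffOn_extChartAt_symm x0)).contDiffOn

theorem exists_atl {M : Type u} [TopologicalSpace M] [T2Space M] [CompactSpace M]
    [ChartedSpace E4 M] [IsManifold (𝓡 4) ∞ M] {J : M → E4 → E4} (hJ : IsAlmostComplex J) :
    Nonempty (Atl M J) := by
  obtain ⟨m, c, ρ, hc, hball, hnear, -, hρ⟩ :=
    exists_adapted_charts hJ (show (0 : ℝ) < 1 / 1000 by norm_num)
  obtain ⟨d, ι, k, C, hι, hinj, hk, hC, hb⟩ := exists_embedding_adapted hc hball
  exact ⟨{
    n := m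
    chart := c
    mem_maximal := hc
    ball_subset := hball
    rho := fun i => ρ i
    rho_nonneg := fun i x => ρ.nonneg i x
    rho_sum := fun x => by
      simpa [finsum_eq_sum_of_fintype] using ρ.sum_eq_one (Set.mem_univ x)
    rho_smooth := fun i => isSmoothFn_of_contMDiff (ρ i).contMDiff
    rho_support := hρ
    near_std := fun i y hy p q => by
      have h0 : J0 p q = J0L (ev4 q) p := by
        rw [show J0L (ev4 q) p = J0.mulVec (ev4 q).ofLp p from congrFun (J0L_apply (ev4 q)) p]
        simp [ev4, Matrix.mulVec, dotProduct]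
      rw [readJ_eq, h0, ← PiLp.sub_apply]
      refine (abs_apply_le_norm4 _ p).trans ((hnear i y hy (ev4 q)).trans ?_)
      simp [ev4]
    dim := d
    emb := ι
    emb_smooth := fun j =>
      isSmoothFn_of_contMDiff ((EuclideanSpace.proj j).contMDiff.comp hι)
    emb_injective := hinj
    emb_bilip := ⟨k, hk, C, hC, hb⟩ }⟩

theorem isTwoForm_p11 {M : Type u} [TopologicalSpace M] [ChartedSpace E4 M] [IsManifold (𝓡 4) ∞ M]
    {J : M → E4 → E4} (hJ : IsAlmostComplex J) {w : M → E4 → E4 → ℝ} (hw : IsTwoForm w) :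
    IsTwoForm (p11 J w) := by
  obtain ⟨hl, -, hs⟩ := hJ
  obtain ⟨h1, h2, h3⟩ := hw
  refine ⟨fun x u => ⟨fun a b => ?_, fun r a => ?_⟩, fun x u v => ?_, fun x0 u v => ?_⟩
  · simp only [p11, (hl x).map_add, (h1 x _).map_add]; ring
  · simp only [p11, (hl x).map_smul, (h1 x _).map_smul, smul_eq_mul]; ring
  · simp only [p11, h2 x u v, h2 x (J x u) (J x v)]; ring
  · have hb := contDiffOn_bInChart (w := w) ⟨h1, h2, h3⟩ x0
    refine (((h3 x0 u v).add ((hb.clm_apply (hs x0 u)).clm_apply (hs x0 v))).div_const 2).congr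
      fun y hy => ?_
    have hJc : ∀ q : E4, fromChart x0 y (toChart x0 ((extChartAt (𝓡 4) x0).symm y)
        (J ((extChartAt (𝓡 4) x0).symm y) (fromChart x0 y q)))
        = J ((extChartAt (𝓡 4) x0).symm y) (fromChart x0 y q) := fun q => by
      have h := fromChart_toChart ((extChartAt (𝓡 4) x0).map_target hy)
        (J ((extChartAt (𝓡 4) x0).symm y) (fromChart x0 y q))
      rwa [(extChartAt (𝓡 4) x0).right_inv hy] at h
    simp only [bInChart_apply ⟨h1, h2, h3⟩, formInChart, p11, hJc]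

/-- every tamed structure on a closed manifold has an adapted setup -/
theorem setupSpec {M : Type u} [TopologicalSpace M] [T2Space M] [CompactSpace M]
    [ChartedSpace E4 M] [IsManifold (𝓡 4) ∞ M] : SetupSpec M := by
  intro J hJ w hw ht
  obtain ⟨atl⟩ := exists_atl hJ
  obtain ⟨hl, hsq, -⟩ := id hJ
  have hwr : ∀ x u v, w x (J x (J x u)) (J x (J x v)) = w x u v := fun x u v => by
    rw [hsq, hsq, show -v = (-1 : ℝ) • v by simp, (hw.1 x _).map_smul, hw.2.1 x v (-u),
      show -u = (-1 : ℝ) • u by simp, (hw.1 x _).map_smul, hw.2.1 x u v]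
    simp
  refine ⟨⟨J, hJ, ⟨p11 J w, isTwoForm_p11 hJ hw⟩, ?_, ?_, atl⟩, rfl, rfl⟩
  · funext x u v
    simp only [p11, hwr]
    ring
  · intro x v hv
    have hJv : J x v ≠ 0 := fun h => hv <| by
      have := hsq x v
      rw [h, (hl x).map_zero] at this
      simpa using this.symm
    have := ht x v hv
    have := ht x (J x v) hJv
    simp only [p11]
    linarith

end Vale.Agent.P204.Full
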